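import Vale.Agent.P040.Main

/-!
P040, Zarankiewicz's conjecture: monotone drawings with one class on a line.
-/

namespace Vale.Agent.Results.P040.CollinearClass

open Vale.Agent.P040

/-- Every drawing of `K_{m,n}` in which one class lies on a line and every edge is monotone in the
direction perpendicular to this line has at least `d_m d_n` crossing pairs of independent edges. -/
theorem result : ∀ (m n : ℕ) (D : Drawing m n), d m * d n ≤ D.crossings.ncard :=
  fun _ _ D => D.main

end Vale.Agent.Results.P040.CollinearClass
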