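import Vale.Agent.P040.Main
import Vale.Agent.P040.Rot
import Vale.Agent.P040.LP
import Vale.Agent.P040.Top

/-!
P040, Zarankiewicz's conjecture: straight-line drawings in which one class sees the other one in at
most four cyclic orders, and arbitrary drawings in which one class lies on a line which is crossed
by no edge.
-/

namespace Vale.Agent.Results.P040.FewCyclicOrders

open Vale.Agent.P040

/-- (1) Straight-line drawings of `K_{m,n}` with vertices `p i` and `q j` (no two vertices of one
class are collinear with a vertex of the other class): if the `n` points `q j` see the `m` points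
`p i` in at most four cyclic orders, there are at least `d_m d_n` crossing pairs of independent
edges.
(2) Every drawing of `K_{m,n}` by continuous edges in which one class lies on a line that no edge
crosses has at least `d_m d_n` crossing pairs of independent edges (edges with a common end may
meet again, and any two edges may meet arbitrarily often). -/
theorem result :
    (∀ (m n : ℕ) (p : Fin m → ℝ × ℝ) (q : Fin n → ℝ × ℝ),
      (∀ j i k, i ≠ k → det (q j) (p i) (p k) ≠ 0) →
      (∀ i j l, j ≠ l → det (q j) (q l) (p i) ≠ 0) →
      (∃ c : Fin n → Fin 4, ∀ j l, c j = c l → SameOrder p (q j) (q l)) →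
      d m * d n ≤ (segCrossings p q).ncard) ∧
    (∀ (m n : ℕ) (D : LineDrawing m n), d m * d n ≤ D.crossings.ncard) :=
  ⟨fun _ _ _ _ h1 h2 ⟨c, hc⟩ => rot (k := 4) (fun c D w a b e => lp c D w a b e) h1 h2 c hc,
    fun _ _ D => D.main⟩

end Vale.Agent.Results.P040.FewCyclicOrders
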